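import Vale.Agent.N021B.Koksma

namespace Vale.Agent.Results.P021.A0FlintHills

open Vale.Agent.N021B

/-- The analogue for `π` of Roth's theorem over number fields. -/
theorem result (K : Type) [Field K] [NumberField K] :
    (∀ (c : (K →+* ℂ) → ℚ) (ε : ℝ), 0 < ε → ∃ κ : ℝ, 0 < κ ∧ ∀ β : K, β ≠ 0 →
      κ ≤ Height.mulHeight₁ β ^ (2 + ε) *
        ∏ φ : K →+* ℂ, min 1 ‖(c φ : ℂ) * (Real.pi : ℂ) - φ β‖) ∧
    ∀ σ : K →+* ℝ, IsLUB {ν : ℝ | 0 < ν ∧ {β : K | 0 < |Real.pi - σ β| ∧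
      |Real.pi - σ β| < Height.mulHeight₁ β ^ (-ν)}.Infinite} 2 :=
  ⟨fun c _ hε => lower_field c hε, isLUB_real⟩

end Vale.Agent.Results.P021.A0FlintHills
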