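import Vale.Agent.N021.Out

namespace Vale.Agent.Results.P021.A0RidoutLogs

open Vale.Agent.N021

/-- (1) The analogue of Ridout's theorem for `π`. (2) Denominators `b ^ N`. (3) Linear forms and
simultaneous approximation for `π` and logarithms of multiplicatively independent rationals.
(4) The irrationality exponent `2` for `π √d` (`d` not a square), `log r`, `arctan r`. -/
theorem result :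
    (∀ S : Finset ℕ, (∀ l ∈ S, l.Prime) → ∀ ε : ℝ, 0 < ε →
      {pq : ℤ × ℤ | IsCoprime pq.1 pq.2 ∧ 2 ≤ pq.2 ∧
        |Real.pi - (pq.1 : ℝ) / (pq.2 : ℝ)| * (∏ l ∈ S, ((padicNorm l pq.1 : ℚ) : ℝ)) *
          (∏ l ∈ S, ((padicNorm l pq.2 : ℚ) : ℝ)) < (pq.2 : ℝ) ^ (-(2 + ε))}.Finite) ∧
    (∀ b : ℕ, 0 < b → ∀ ε : ℝ, 0 < ε → ∃ c : ℝ, 0 < c ∧ ∀ (N : ℕ) (p : ℤ),
      c ≤ ((b : ℝ) ^ N) ^ (1 + ε) * |Real.pi - (p : ℝ) / (b : ℝ) ^ N|) ∧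
    (∀ (n : ℕ) (a : Fin n → ℚ), (∀ k, 0 < a k) →
      (∀ e : Fin n → ℤ, ∏ k, a k ^ e k = 1 → e = 0) → ∀ ε : ℝ, 0 < ε →
      (∃ c : ℝ, 0 < c ∧ ∀ (x y : ℤ) (z : Fin n → ℤ) (H : ℝ), (y ≠ 0 ∨ z ≠ 0) →
        |(y : ℝ)| ≤ H → (∀ k, |(z k : ℝ)| ≤ H) →
        c ≤ H ^ (n + 1 + ε) * |x + y * Real.pi + ∑ k, z k * Real.log (a k)|) ∧
      (∀ S : Finset ℕ, (∀ l ∈ S, l.Prime) → ∃ c : ℝ, 0 < c ∧
        ∀ (q : ℕ) (p₀ : ℤ) (p : Fin n → ℤ) (δ : ℝ), 0 < q →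
        |q * Real.pi - p₀| ≤ δ → (∀ k, |q * Real.log (a k) - p k| ≤ δ) →
        c ≤ (q : ℝ) ^ (1 + ε) * (∏ l ∈ S, ((padicNorm l q : ℚ) : ℝ)) * δ ^ (n + 1))) ∧
    (∀ x : ℝ, ((∃ d : ℕ, ¬ IsSquare d ∧ x = Real.pi * Real.sqrt d) ∨
        (∃ r : ℚ, 0 < r ∧ r ≠ 1 ∧ x = Real.log r) ∨
        (∃ r : ℚ, r ≠ 0 ∧ |r| ≠ 1 ∧ x = Real.arctan r)) →
      IsLUB {ν : ℝ | 0 < ν ∧ {pq : ℤ × ℤ | IsCoprime pq.1 pq.2 ∧ 2 ≤ pq.2 ∧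
        0 < |x - (pq.1 : ℝ) / (pq.2 : ℝ)| ∧
        |x - (pq.1 : ℝ) / (pq.2 : ℝ)| < (pq.2 : ℝ) ^ (-ν)}.Infinite} 2) := by
  refine ⟨fun S hS _ hε => ridout _ 1 _ pi_data.1 pi_data.2.1 pi_data.2.2 S hS hε,
    fun _ hb _ hε => pow_base pi_sys hb hε,
    fun _ a ha hind _ hε => ⟨linform_pi_log a ha hind hε,
      fun S hS => simul_pi_log a ha hind S hS hε⟩, ?_⟩
  rintro x (⟨d, hd, rfl⟩ | ⟨r, hr, hr1, rfl⟩ | ⟨r, hr, -, rfl⟩)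
  · exact isLUB_of_mu (mu_pi_sqrt (Nat.pos_of_ne_zero fun h => hd (h ▸ IsSquare.zero)))
  · exact isLUB_of_mu (mu_log hr hr1)
  · exact isLUB_of_mu (mu_arctan hr)

end Vale.Agent.Results.P021.A0RidoutLogs
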